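import Vale.Agent.Lib.P315.LowerBound

namespace Vale.Agent.Results.P315.DetCmpLowerBound

open Vale.Agent.Lib.P315

/-- Every deterministic comparison tree that approximates the edit distance of two strings
of length `n` within a factor `α` makes at least `n ^ 2 / (4 * α ^ 2)` symbol comparisons on
every input whose `2 n` symbols are pairwise distinct. -/
theorem result (n : ℕ) (α : ℝ) (T : CmpTree n)
    (hT : ∀ x y : Fin n → Fin (2 * n),
      (editDist (List.ofFn x) (List.ofFn y) : ℝ) ≤ T.run x y ∧
        T.run x y ≤ α * editDist (List.ofFn x) (List.ofFn y))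
    (x y : Fin n → Fin (2 * n)) (hxy : Function.Injective (Sum.elim x y)) :
    (n : ℝ) ^ 2 ≤ 4 * α ^ 2 * T.cost x y :=
  main_bound_injective α T hT x y hxy

end Vale.Agent.Results.P315.DetCmpLowerBound
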